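import Vale.Agent.Lib.P069.Defs

open scoped ENNReal

namespace Vale.Agent.Lib.P069
namespace AmucLp

theorem real_key (A B a b ε : ℝ) (hA : 0 ≤ A) (hB : 0 ≤ B) (ha : 0 ≤ a) (hb : 0 ≤ b)
    (hε : 0 < ε)
    (h : ∀ α β : ℝ, 0 ≤ α → 0 ≤ β → β ≤ 1 / 2 → α ^ 2 + β ^ 2 ≤ 1 →
      2 * α * A + β * B - ε ≤ a + b) :
    2 * A ^ 2 + B ^ 2 / 16 - (2 * ε * A + ε ^ 2) ≤ a ^ 2 + b ^ 2 := by
  set r : ℝ := Real.sqrt (4 * A ^ 2 + B ^ 2 / 4) with hr
  have hr0 : 0 ≤ r := Real.sqrt_nonneg _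
  have hr2 : r ^ 2 = 4 * A ^ 2 + B ^ 2 / 4 := Real.sq_sqrt (by positivity)
  -- step 1
  have h1 : r - ε ≤ a + b := by
    by_cases hcase : 3 * B ^ 2 ≤ 4 * A ^ 2
    · set D : ℝ := Real.sqrt (4 * A ^ 2 + B ^ 2) with hD
      have hD0 : 0 ≤ D := Real.sqrt_nonneg _
      have hD2 : D ^ 2 = 4 * A ^ 2 + B ^ 2 := Real.sq_sqrt (by positivity)
      have hrD : r ≤ D := Real.sqrt_le_sqrt (by nlinarith [sq_nonneg B])
      rcases hD0.eq_or_lt with hzero | hpos
      · have : r ≤ 0 := by rw [hzero]; exact hrD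
        linarith
      · have hα := h (2 * A / D) (B / D) (by positivity) (by positivity)
          (by
            rw [div_le_iff₀ hpos]
            have : (2 * B) ^ 2 ≤ D ^ 2 := by rw [hD2]; nlinarith
            have h2 : 2 * B ≤ D := by
              by_contra hlt
              rw [not_le] at hlt
              nlinarith
            linarith)
          (by
            rw [div_pow, div_pow, ← add_div, hD2]
            have : (2 * A) ^ 2 + B ^ 2 = 4 * A ^ 2 + B ^ 2 := by ring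
            rw [this, div_self (by rw [← hD2]; positivity)])
        have e : 2 * (2 * A / D) * A + B / D * B = D := by
          field_simp
          nlinarith
        rw [e] at hα
        linarith
    · rw [not_le] at hcase
      have hs3 : Real.sqrt 3 ^ 2 = 3 := Real.sq_sqrt (by norm_num)
      have hs30 : 0 ≤ Real.sqrt 3 := Real.sqrt_nonneg _
      have hα := h (Real.sqrt 3 / 2) (1 / 2) (by positivity) (by norm_num) le_rfl
        (by rw [div_pow, hs3]; norm_num)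
      have hAB : A ≤ Real.sqrt 3 * B := by
        by_contra hlt
        rw [not_le] at hlt
        have h0 : 0 ≤ Real.sqrt 3 * B := by positivity
        have : (Real.sqrt 3 * B) ^ 2 < A ^ 2 := by nlinarith
        rw [mul_pow, hs3] at this
        nlinarith
      have hrle : r ≤ Real.sqrt 3 * A + B / 2 := by
        rw [hr]
        apply Real.sqrt_le_iff.mpr
        refine ⟨by positivity, ?_⟩
        have : (Real.sqrt 3 * A + B / 2) ^ 2 = 3 * A ^ 2 + Real.sqrt 3 * A * B + B ^ 2 / 4 := by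
          ring_nf
          rw [hs3]; ring
        rw [this]
        nlinarith [mul_nonneg hA (sub_nonneg.mpr hAB)]
      have e : 2 * (Real.sqrt 3 / 2) * A + 1 / 2 * B = Real.sqrt 3 * A + B / 2 := by ring
      rw [e] at hα
      linarith
  -- step 2
  have h2 : r ^ 2 / 2 - ε * r ≤ a ^ 2 + b ^ 2 := by
    by_cases hrε : ε ≤ r
    · have h3 : (r - ε) ^ 2 ≤ (a + b) ^ 2 := by
        apply pow_le_pow_left₀ (by linarith) h1
      nlinarith [sq_nonneg (a - b), sq_nonneg ε]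
    · rw [not_le] at hrε
      nlinarith [sq_nonneg a, sq_nonneg b]
  have h3 : r ≤ 2 * A + B / 2 := by
    rw [hr]
    apply Real.sqrt_le_iff.mpr
    refine ⟨by positivity, ?_⟩
    nlinarith [mul_nonneg hA hB]
  have h4 : ε * r ≤ ε * (2 * A + B / 2) := mul_le_mul_of_nonneg_left h3 hε.le
  nlinarith [sq_nonneg (ε - B / 4)]

theorem real_key2 (A B a b : ℝ) (hA : 0 ≤ A) (hB : 0 ≤ B) (ha : B - A ≤ a) (hb : B - A ≤ b) :
    2 * A ^ 2 + B ^ 2 / 16 - 6 * A ^ 2 ≤ a ^ 2 + b ^ 2 := by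
  by_cases hBA : A ≤ B
  · have h1 : (B - A) ^ 2 ≤ a ^ 2 := pow_le_pow_left₀ (by linarith) ha 2
    have h2 : (B - A) ^ 2 ≤ b ^ 2 := pow_le_pow_left₀ (by linarith) hb 2
    nlinarith [sq_nonneg (B - 2 * A), sq_nonneg (31 * B - 32 * A), sq_nonneg B, sq_nonneg A]
  · rw [not_le] at hBA
    nlinarith [sq_nonneg a, sq_nonneg b]

end AmucLp

open AmucLp in
theorem amuc_lp_two_modulus (E : ℕ → Type*) [∀ n, NormedAddCommGroup (E n)]
    [∀ n, NormedSpace ℝ (E n)]
    (h : ∀ (n : ℕ) (f : E n) (ε : ℝ), 0 < ε →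
      ∃ F : Submodule ℝ (E n), IsClosed (F : Set (E n)) ∧ FiniteDimensional ℝ (E n ⧸ F) ∧
        ∀ g ∈ F, ∀ α β : ℝ, 0 ≤ α → 0 ≤ β → β ≤ 1 / 2 → α ^ 2 + β ^ 2 ≤ 1 →
          2 * α * ‖f‖ + β * ‖g‖ - ε ≤ ‖f + g‖ + ‖f - g‖) :
    ∀ t : ℝ, 0 < t → ∀ x : lp E 2, ‖x‖ = 1 →
      ∃ F : Submodule ℝ (lp E 2), IsClosed (F : Set (lp E 2)) ∧
        FiniteDimensional ℝ (lp E 2 ⧸ F) ∧
        ∀ y ∈ F, ‖y‖ = 1 → Real.sqrt (1 + t ^ 2 / 64) ≤ max ‖x + t • y‖ ‖x - t • y‖ := by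
  classical
  intro t ht f hf
  set η : ℝ := t ^ 2 / 224 with hη
  have hηpos : 0 < η := by positivity
  have hsq : ∀ x : lp E 2, HasSum (fun n => ‖x n‖ ^ 2) (‖x‖ ^ 2) := by
    intro x
    have h1 := lp.hasSum_norm (p := 2) (by norm_num) x
    simpa [Real.rpow_two] using h1
  have hsumA : HasSum (fun n => ‖f n‖ ^ 2) 1 := by
    have h1 := hsq f
    rwa [hf, one_pow] at h1
  obtain ⟨N, hN⟩ : ∃ N, 1 - η < ∑ n ∈ Finset.range N, ‖f n‖ ^ 2 := by
    have h1 := hsumA.tendsto_sum_nat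
    exact (h1.eventually (lt_mem_nhds (by linarith))).exists
  set ε : ℕ → ℝ := fun n => min 1 (η / 2 / 2 ^ n / (2 * ‖f n‖ + 1)) with hε
  have hεpos : ∀ n, 0 < ε n := fun n => lt_min one_pos (by positivity)
  have hεb : ∀ n, 2 * ε n * ‖f n‖ + ε n ^ 2 ≤ η / 2 / 2 ^ n := by
    intro n
    have h1 : ε n ≤ 1 := min_le_left _ _
    have h2 : ε n ≤ η / 2 / 2 ^ n / (2 * ‖f n‖ + 1) := min_le_right _ _
    have h3 : ε n * (2 * ‖f n‖ + 1) ≤ η / 2 / 2 ^ n := by
      rwa [le_div_iff₀ (by positivity)] at h2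
    nlinarith [hεpos n, norm_nonneg (f n)]
  choose F hFc hFd hF using fun n => h n (f n) (ε n) (hεpos n)
  let L : lp E 2 →ₗ[ℝ] (∀ n : Fin N, E n ⧸ F n) :=
    LinearMap.pi fun n => (F n).mkQ.comp (lp.evalₗ (𝕜 := ℝ) E 2 n)
  have hmem : ∀ g : lp E 2, g ∈ LinearMap.ker L ↔ ∀ n : Fin N, g n ∈ F n := by
    intro g
    rw [LinearMap.mem_ker]
    constructor
    · intro hg n
      have h1 := congrFun hg n
      simpa [L, Submodule.Quotient.mk_eq_zero] using h1
    · intro hg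
      funext n
      simpa [L, Submodule.Quotient.mk_eq_zero] using hg n
  refine ⟨LinearMap.ker L, ?_, ?_, ?_⟩
  · have hset : (LinearMap.ker L : Set (lp E 2)) =
        ⋂ n : Fin N, (fun g : lp E 2 => g n) ⁻¹' (F n : Set (E n)) := by
      ext g
      simp only [SetLike.mem_coe, hmem, Set.mem_iInter, Set.mem_preimage]
    rw [hset]
    refine isClosed_iInter fun n => (hFc n).preimage ?_
    exact (lp.evalCLM ℝ E 2 n).continuous
  · have : ∀ n : Fin N, FiniteDimensional ℝ (E n ⧸ F n) := fun n => hFd n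
    exact (L.quotKerEquivRange).symm.finiteDimensional
  · intro y hy hy1
    have hyF : ∀ n, n < N → y n ∈ F n := fun n hn => (hmem y).mp hy ⟨n, hn⟩
    have hgn : ‖t • y‖ = t := by
      rw [norm_smul, hy1, mul_one, Real.norm_eq_abs, abs_of_pos ht]
    have hsumB : HasSum (fun n => ‖(t • y) n‖ ^ 2) (t ^ 2) := by
      have h1 := hsq (t • y)
      rwa [hgn] at h1
    have hsuma := hsq (f + t • y)
    have hsumb := hsq (f - t • y)
    set Er : ℕ → ℝ := fun n => η / 2 / 2 ^ n + (if n < N then 0 else 6 * ‖f n‖ ^ 2) with hEr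
    have hsumE : HasSum Er (η + 6 * (1 - ∑ n ∈ Finset.range N, ‖f n‖ ^ 2)) := by
      have h1 : HasSum (fun n : ℕ => η / 2 / 2 ^ n) η := hasSum_geometric_two' η
      have h2 : HasSum (fun n => if n < N then ‖f n‖ ^ 2 else 0)
          (∑ n ∈ Finset.range N, ‖f n‖ ^ 2) := by
        have h3 : HasSum (fun n => if n < N then ‖f n‖ ^ 2 else 0)
            (∑ n ∈ Finset.range N, (if n < N then ‖f n‖ ^ 2 else 0)) :=
          hasSum_sum_of_ne_finset_zero (fun n hn => by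
            rw [Finset.mem_range] at hn
            simp [hn])
        have e : ∑ n ∈ Finset.range N, (if n < N then ‖f n‖ ^ 2 else 0) =
            ∑ n ∈ Finset.range N, ‖f n‖ ^ 2 :=
          Finset.sum_congr rfl fun n hn => by
            rw [Finset.mem_range] at hn
            simp [hn]
        rwa [e] at h3
      have h4 := (hsumA.sub h2).mul_left 6
      have h5 := h1.add h4
      refine h5.congr_fun ?_   
      intro n
      simp only [hEr]
      split_ifs <;> ring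
    have hterm : ∀ n, 2 * ‖f n‖ ^ 2 + ‖(t • y) n‖ ^ 2 / 16 - Er n ≤
        ‖(f + t • y) n‖ ^ 2 + ‖(f - t • y) n‖ ^ 2 := by
      intro n
      have e1 : (f + t • y) n = f n + (t • y) n := rfl
      have e2 : (f - t • y) n = f n - (t • y) n := rfl
      rw [e1, e2]
      by_cases hn : n < N
      · have hgF : (t • y) n ∈ F n := by
          have : (t • y) n = t • y n := rfl
          rw [this]
          exact (F n).smul_mem t (hyF n hn)
        have h1 := real_key ‖f n‖ ‖(t • y) n‖ ‖f n + (t • y) n‖ ‖f n - (t • y) n‖ (ε n)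
          (norm_nonneg _) (norm_nonneg _) (norm_nonneg _) (norm_nonneg _) (hεpos n)
          (fun α β hα hβ hβ2 hαβ => hF n _ hgF α β hα hβ hβ2 hαβ)
        have h2 := hεb n
        simp only [hEr, if_pos hn]
        linarith
      · have ha : ‖(t • y) n‖ - ‖f n‖ ≤ ‖f n + (t • y) n‖ := by
          have := norm_sub_norm_le ((t • y) n) (-(f n))
          simp only [norm_neg, sub_neg_eq_add] at this
          rwa [add_comm] at this
        have hb : ‖(t • y) n‖ - ‖f n‖ ≤ ‖f n - (t • y) n‖ := by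
          have := norm_sub_norm_le ((t • y) n) (f n)
          rwa [norm_sub_rev] at this
        have h1 := real_key2 ‖f n‖ ‖(t • y) n‖ ‖f n + (t • y) n‖ ‖f n - (t • y) n‖
          (norm_nonneg _) (norm_nonneg _) ha hb
        have h2 : (0 : ℝ) ≤ η / 2 / 2 ^ n := by positivity
        simp only [hEr, if_neg hn]
        linarith
    have hle := hasSum_le hterm (((hsumA.mul_left 2).add (hsumB.div_const 16)).sub hsumE)
      (hsuma.add hsumb)
    have hfinal : 2 + t ^ 2 / 32 ≤ ‖f + t • y‖ ^ 2 + ‖f - t • y‖ ^ 2 := by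
      have : η = t ^ 2 / 224 := hη
      linarith
    set M : ℝ := max ‖f + t • y‖ ‖f - t • y‖ with hM
    have hM0 : 0 ≤ M := le_max_of_le_left (norm_nonneg _)
    have h1 : ‖f + t • y‖ ^ 2 ≤ M ^ 2 := pow_le_pow_left₀ (norm_nonneg _) (le_max_left _ _) 2
    have h2 : ‖f - t • y‖ ^ 2 ≤ M ^ 2 := pow_le_pow_left₀ (norm_nonneg _) (le_max_right _ _) 2
    have h3 : 1 + t ^ 2 / 64 ≤ M ^ 2 := by linarith
    rw [Real.sqrt_le_iff]
    exact ⟨hM0, h3⟩

theorem amuc_lp_two (E : ℕ → Type*) [∀ n, NormedAddCommGroup (E n)] [∀ n, NormedSpace ℝ (E n)]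
    (h : ∀ (n : ℕ) (f : E n) (ε : ℝ), 0 < ε →
      ∃ F : Submodule ℝ (E n), IsClosed (F : Set (E n)) ∧ FiniteDimensional ℝ (E n ⧸ F) ∧
        ∀ g ∈ F, ∀ α β : ℝ, 0 ≤ α → 0 ≤ β → β ≤ 1 / 2 → α ^ 2 + β ^ 2 ≤ 1 →
          2 * α * ‖f‖ + β * ‖g‖ - ε ≤ ‖f + g‖ + ‖f - g‖) :
    IsAMUC (fun x : lp E 2 => ‖x‖) := by
  intro t ht
  have hδ : 1 < Real.sqrt (1 + t ^ 2 / 64) := by
    rw [Real.lt_sqrt (by norm_num)]
    nlinarith [sq_pos_of_pos ht]
  refine ⟨Real.sqrt (1 + t ^ 2 / 64) - 1, by linarith, ?_⟩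
  intro x hx
  obtain ⟨F, hFc, hFd, hF⟩ := amuc_lp_two_modulus E h t ht x hx
  refine ⟨F, hFc, hFd, fun y hy hy1 => ?_⟩
  have h1 := hF y hy hy1
  change 1 + (Real.sqrt (1 + t ^ 2 / 64) - 1) ≤ max ‖x + t • y‖ ‖x - t • y‖
  linarith

end Vale.Agent.Lib.P069
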