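import Mathlib

open scoped ENNReal

namespace Vale.Agent.Lib.P069

namespace LpTwo

theorem le_sq_of_le_mul_sqrt {A M : ℝ} (hA : 0 ≤ A) (hM : 0 ≤ M) (h : A ≤ M * Real.sqrt A) :
    A ≤ M ^ 2 := by
  rcases hA.eq_or_lt with h0 | hpos
  · rw [← h0]; positivity
  · have hs : 0 < Real.sqrt A := Real.sqrt_pos.mpr hpos
    have h1 : Real.sqrt A * Real.sqrt A = A := Real.mul_self_sqrt hA
    have h2 : Real.sqrt A ≤ M := by
      by_contra hlt
      rw [not_le] at hlt
      have : M * Real.sqrt A < Real.sqrt A * Real.sqrt A := mul_lt_mul_of_pos_right hlt hs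
      linarith
    calc A = Real.sqrt A * Real.sqrt A := h1.symm
      _ ≤ M * M := mul_le_mul h2 h2 hs.le hM
      _ = M ^ 2 := by ring

section

variable {E : ℕ → Type*} [∀ n, NormedAddCommGroup (E n)]

theorem lp2_sum_sq_le (x : lp E 2) (s : Finset ℕ) : ∑ n ∈ s, ‖x n‖ ^ 2 ≤ ‖x‖ ^ 2 := by
  have h := lp.sum_rpow_le_norm_rpow (p := 2) (by norm_num) x s
  simpa [ENNReal.toReal_ofNat, Real.rpow_two] using h

theorem lp2_norm_sum_single_sq (u : ∀ n, E n) (s : Finset ℕ) :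
    ‖∑ n ∈ s, lp.single 2 n (u n)‖ ^ 2 = ∑ n ∈ s, ‖u n‖ ^ 2 := by
  have h := lp.norm_sum_single (p := 2) (by norm_num) u s
  simpa [ENNReal.toReal_ofNat, Real.rpow_two] using h

variable [∀ n, NormedSpace ℝ (E n)]

/-- the coordinate functionals of a functional on the l2-sum are square summable -/
theorem lp2_dual_sum_sq_le
    (h : ∀ n, Function.Surjective (NormedSpace.inclusionInDoubleDual ℝ (E n)))
    (f : StrongDual ℝ (lp E 2)) (s : Finset ℕ) :
    ∑ n ∈ s, ‖f.comp (lp.singleContinuousLinearMap ℝ E 2 n)‖ ^ 2 ≤ ‖f‖ ^ 2 := by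
  classical
  have hu : ∀ n, ∃ u : E n, ‖u‖ ≤ 1 ∧
      f (lp.single 2 n u) = ‖f.comp (lp.singleContinuousLinearMap ℝ E 2 n)‖ := by
    intro n
    obtain ⟨θ, hθ1, hθ2⟩ := exists_dual_vector'' ℝ (f.comp (lp.singleContinuousLinearMap ℝ E 2 n))
    obtain ⟨u, hu⟩ := h n θ
    refine ⟨u, ?_, ?_⟩
    · have h1 : ‖NormedSpace.inclusionInDoubleDual ℝ (E n) u‖ = ‖u‖ :=
        (NormedSpace.inclusionInDoubleDualLi (E := E n) ℝ).norm_map u
      rw [← h1, hu]; exact hθ1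
    · have h2 : θ (f.comp (lp.singleContinuousLinearMap ℝ E 2 n)) =
          (f.comp (lp.singleContinuousLinearMap ℝ E 2 n)) u := by
        rw [← hu]; rfl
      rw [h2] at hθ2
      simpa using hθ2
  choose u hu1 hu2 using hu
  set a : ℕ → ℝ := fun n => ‖f.comp (lp.singleContinuousLinearMap ℝ E 2 n)‖ with ha
  set A : ℝ := ∑ n ∈ s, a n ^ 2 with hA
  have hA0 : 0 ≤ A := Finset.sum_nonneg fun n _ => by positivity
  let x : lp E 2 := ∑ n ∈ s, lp.single 2 n (a n • u n)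
  have hfx : f x = A := by
    simp only [x, map_sum]
    refine Finset.sum_congr rfl fun n _ => ?_
    rw [lp.single_smul, map_smul, hu2 n, smul_eq_mul, pow_two]
  have hx : ‖x‖ ≤ Real.sqrt A := by
    apply Real.le_sqrt_of_sq_le
    rw [lp2_norm_sum_single_sq (fun n => a n • u n) s]
    refine Finset.sum_le_sum fun n _ => ?_
    rw [norm_smul, mul_pow, Real.norm_eq_abs, sq_abs]
    have : ‖u n‖ ^ 2 ≤ 1 := by
      have := hu1 n
      have h0 := norm_nonneg (u n)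
      nlinarith
    nlinarith [sq_nonneg (a n)]
  refine le_sq_of_le_mul_sqrt hA0 (norm_nonneg f) ?_
  calc A = f x := hfx.symm
    _ ≤ ‖f x‖ := Real.le_norm_self _
    _ ≤ ‖f‖ * ‖x‖ := f.le_opNorm x
    _ ≤ ‖f‖ * Real.sqrt A := mul_le_mul_of_nonneg_left hx (norm_nonneg f)

/-- a functional on the l2-sum is bounded by the l2-norm of its coordinate functionals -/
theorem lp2_dual_norm_le (g : StrongDual ℝ (lp E 2)) (B : ℝ) (hB : 0 ≤ B)
    (hg : ∀ t : Finset ℕ, ∑ n ∈ t, ‖g.comp (lp.singleContinuousLinearMap ℝ E 2 n)‖ ^ 2 ≤ B ^ 2) :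
    ‖g‖ ≤ B := by
  refine ContinuousLinearMap.opNorm_le_bound g hB fun x => ?_
  have hsum : HasSum (fun n => g (lp.single 2 n (x n))) (g x) :=
    g.hasSum (lp.hasSum_single (by norm_num) x)
  have hbound : ∀ t : Finset ℕ, ‖∑ n ∈ t, g (lp.single 2 n (x n))‖ ≤ B * ‖x‖ := by
    intro t
    calc ‖∑ n ∈ t, g (lp.single 2 n (x n))‖ ≤ ∑ n ∈ t, ‖g (lp.single 2 n (x n))‖ :=
          norm_sum_le _ _
      _ ≤ ∑ n ∈ t, ‖g.comp (lp.singleContinuousLinearMap ℝ E 2 n)‖ * ‖x n‖ :=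
          Finset.sum_le_sum fun n _ =>
            (g.comp (lp.singleContinuousLinearMap ℝ E 2 n)).le_opNorm (x n)
      _ ≤ Real.sqrt (∑ n ∈ t, ‖g.comp (lp.singleContinuousLinearMap ℝ E 2 n)‖ ^ 2) *
            Real.sqrt (∑ n ∈ t, ‖x n‖ ^ 2) := Real.sum_mul_le_sqrt_mul_sqrt _ _ _
      _ ≤ B * ‖x‖ := by
          refine mul_le_mul ?_ ?_ (Real.sqrt_nonneg _) hB
          · exact Real.sqrt_le_iff.mpr ⟨hB, hg t⟩
          · exact Real.sqrt_le_iff.mpr ⟨norm_nonneg _, lp2_sum_sq_le x t⟩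
  exact le_of_tendsto hsum.norm (Filter.Eventually.of_forall hbound)

/-- a functional on the l2-sum is the norm-convergent sum of its coordinate parts -/
theorem lp2_dual_hasSum
    (h : ∀ n, Function.Surjective (NormedSpace.inclusionInDoubleDual ℝ (E n)))
    (f : StrongDual ℝ (lp E 2)) :
    HasSum (fun n => (f.comp (lp.singleContinuousLinearMap ℝ E 2 n)).comp (lp.evalCLM ℝ E 2 n))
      f := by
  classical
  set a : ℕ → ℝ := fun n => ‖f.comp (lp.singleContinuousLinearMap ℝ E 2 n)‖ with ha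
  have ha0 : ∀ n, 0 ≤ a n ^ 2 := fun n => by positivity
  have hsummable : Summable fun n => a n ^ 2 :=
    summable_of_sum_le ha0 (fun s => lp2_dual_sum_sq_le h f s)
  set L : ℝ := ∑' n, a n ^ 2 with hL
  have hLsum : HasSum (fun n => a n ^ 2) L := hsummable.hasSum
  have hle : ∀ s : Finset ℕ, ∑ n ∈ s, a n ^ 2 ≤ L := fun s =>
    hsummable.sum_le_tsum s (fun n _ => ha0 n)
  -- the tails
  have hcomp : ∀ (s : Finset ℕ) (m : ℕ),
      (f - ∑ n ∈ s, (f.comp (lp.singleContinuousLinearMap ℝ E 2 n)).comp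
        (lp.evalCLM ℝ E 2 n)).comp (lp.singleContinuousLinearMap ℝ E 2 m) =
      if m ∈ s then 0 else f.comp (lp.singleContinuousLinearMap ℝ E 2 m) := by
    intro s m
    ext u
    have hterm : ∀ n, ((f.comp (lp.singleContinuousLinearMap ℝ E 2 n)).comp
        (lp.evalCLM ℝ E 2 n)) (lp.single 2 m u) =
        if n = m then f (lp.single 2 m u) else 0 := by
      intro n
      by_cases hnm : n = m
      · subst hnm
        simp [lp.evalCLM]
      · simp [lp.evalCLM, hnm]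
    simp only [ContinuousLinearMap.comp_apply, sub_apply,
      sum_apply, lp.singleContinuousLinearMap_apply]
    have hsum : ∑ n ∈ s, ((f.comp (lp.singleContinuousLinearMap ℝ E 2 n)).comp
        (lp.evalCLM ℝ E 2 n)) (lp.single 2 m u) = if m ∈ s then f (lp.single 2 m u) else 0 := by
      rw [Finset.sum_congr rfl fun n _ => hterm n]
      simp
    simp only [ContinuousLinearMap.comp_apply, lp.singleContinuousLinearMap_apply] at hsum
    rw [hsum]
    split_ifs <;> simp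
  have hnorm : ∀ s : Finset ℕ,
      ‖f - ∑ n ∈ s, (f.comp (lp.singleContinuousLinearMap ℝ E 2 n)).comp
        (lp.evalCLM ℝ E 2 n)‖ ≤ Real.sqrt (L - ∑ n ∈ s, a n ^ 2) := by
    intro s
    refine lp2_dual_norm_le _ _ (Real.sqrt_nonneg _) fun t => ?_
    rw [Real.sq_sqrt (sub_nonneg.mpr (hle s))]
    have h1 : ∑ n ∈ t, ‖(f - ∑ n ∈ s, (f.comp (lp.singleContinuousLinearMap ℝ E 2 n)).comp
        (lp.evalCLM ℝ E 2 n)).comp (lp.singleContinuousLinearMap ℝ E 2 n)‖ ^ 2 =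
        ∑ n ∈ t \ s, a n ^ 2 := by
      rw [Finset.sum_congr rfl fun n _ => by rw [hcomp s n]]
      rw [← Finset.sum_filter_add_sum_filter_not t (fun n => n ∈ s)]
      have e1 : ∑ n ∈ t.filter (fun n => n ∈ s),
          ‖(if n ∈ s then (0 : StrongDual ℝ (E n))
            else f.comp (lp.singleContinuousLinearMap ℝ E 2 n))‖ ^ 2 = 0 := by
        refine Finset.sum_eq_zero fun n hn => ?_
        rw [Finset.mem_filter] at hn
        simp [hn.2]
      have e2 : ∑ n ∈ t.filter (fun n => ¬ n ∈ s),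
          ‖(if n ∈ s then (0 : StrongDual ℝ (E n))
            else f.comp (lp.singleContinuousLinearMap ℝ E 2 n))‖ ^ 2 =
          ∑ n ∈ t \ s, a n ^ 2 := by
        rw [Finset.filter_not, Finset.filter_mem_eq_inter]
        have : t \ (t ∩ s) = t \ s := by
          ext n; simp
        rw [this]
        refine Finset.sum_congr rfl fun n hn => ?_
        rw [Finset.mem_sdiff] at hn
        simp [hn.2, ha]
      rw [e1, e2, zero_add]
    rw [h1]
    have h2 : ∑ n ∈ t \ s, a n ^ 2 + ∑ n ∈ s, a n ^ 2 ≤ L := by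
      rw [← Finset.sum_union Finset.sdiff_disjoint]
      exact hle _
    linarith
  rw [HasSum]
  rw [tendsto_iff_norm_sub_tendsto_zero]
  have hlim : Filter.Tendsto (fun s : Finset ℕ => Real.sqrt (L - ∑ n ∈ s, a n ^ 2))
      Filter.atTop (nhds 0) := by
    have h1 : Filter.Tendsto (fun s : Finset ℕ => L - ∑ n ∈ s, a n ^ 2) Filter.atTop
        (nhds (L - L)) := tendsto_const_nhds.sub hLsum
    rw [sub_self] at h1
    have h2 : Filter.Tendsto (fun s : Finset ℕ => Real.sqrt (L - ∑ n ∈ s, a n ^ 2))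
        Filter.atTop (nhds (Real.sqrt 0)) := (Real.continuous_sqrt.tendsto 0).comp h1
    rwa [Real.sqrt_zero] at h2
  refine squeeze_zero (fun s => norm_nonneg _) (fun s => ?_) hlim
  rw [← norm_neg, neg_sub]
  exact hnorm s

end

end LpTwo

open LpTwo in
theorem lp_two_reflexive (E : ℕ → Type*) [∀ n, NormedAddCommGroup (E n)]
    [∀ n, NormedSpace ℝ (E n)]
    (h : ∀ n, Function.Surjective (NormedSpace.inclusionInDoubleDual ℝ (E n))) :
    Function.Surjective (NormedSpace.inclusionInDoubleDual ℝ (lp E 2)) := by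
  classical
  intro Ψ
  have hy : ∀ n, ∃ y : E n, ∀ g : StrongDual ℝ (E n),
      Ψ (g.comp (lp.evalCLM ℝ E 2 n)) = g y := by
    intro n
    obtain ⟨y, hy⟩ := h n
      (Ψ.comp ((ContinuousLinearMap.compL ℝ (lp E 2) (E n) ℝ).flip (lp.evalCLM ℝ E 2 n)))
    refine ⟨y, fun g => ?_⟩
    have h1 := congrArg (fun φ : StrongDual ℝ (StrongDual ℝ (E n)) => φ g) hy
    simpa using h1.symm
  choose y hy using hy
  -- y is square summable
  have hS1 : ∀ s : Finset ℕ, ∑ n ∈ s, ‖y n‖ ^ 2 ≤ ‖Ψ‖ ^ 2 := by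
    intro s
    have hg : ∀ n, ∃ g : StrongDual ℝ (E n), ‖g‖ ≤ 1 ∧ g (y n) = ‖y n‖ := fun n =>
      exists_dual_vector'' ℝ (y n)
    choose g hg1 hg2 using hg
    set A : ℝ := ∑ n ∈ s, ‖y n‖ ^ 2 with hA
    have hA0 : 0 ≤ A := Finset.sum_nonneg fun n _ => by positivity
    let G : StrongDual ℝ (lp E 2) := ∑ n ∈ s, ‖y n‖ • (g n).comp (lp.evalCLM ℝ E 2 n)
    have hΨG : Ψ G = A := by
      simp only [G, map_sum, map_smul]
      refine Finset.sum_congr rfl fun n _ => ?_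
      rw [hy n (g n), hg2 n, smul_eq_mul, pow_two]
    have hG : ‖G‖ ≤ Real.sqrt A := by
      refine ContinuousLinearMap.opNorm_le_bound G (Real.sqrt_nonneg _) fun x => ?_
      have hGx : G x = ∑ n ∈ s, ‖y n‖ * g n (x n) := by
        simp [G, lp.evalCLM]
      rw [hGx]
      calc ‖∑ n ∈ s, ‖y n‖ * g n (x n)‖ ≤ ∑ n ∈ s, ‖‖y n‖ * g n (x n)‖ := norm_sum_le _ _
        _ ≤ ∑ n ∈ s, ‖y n‖ * ‖x n‖ := by
            refine Finset.sum_le_sum fun n _ => ?_
            rw [norm_mul, norm_norm]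
            refine mul_le_mul_of_nonneg_left ?_ (norm_nonneg _)
            calc ‖g n (x n)‖ ≤ ‖g n‖ * ‖x n‖ := (g n).le_opNorm (x n)
              _ ≤ 1 * ‖x n‖ := mul_le_mul_of_nonneg_right (hg1 n) (norm_nonneg _)
              _ = ‖x n‖ := one_mul _
        _ ≤ Real.sqrt (∑ n ∈ s, ‖y n‖ ^ 2) * Real.sqrt (∑ n ∈ s, ‖x n‖ ^ 2) :=
            Real.sum_mul_le_sqrt_mul_sqrt _ _ _
        _ ≤ Real.sqrt A * ‖x‖ := by
            refine mul_le_mul_of_nonneg_left ?_ (Real.sqrt_nonneg _)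
            exact Real.sqrt_le_iff.mpr ⟨norm_nonneg _, lp2_sum_sq_le x s⟩
    refine le_sq_of_le_mul_sqrt hA0 (norm_nonneg Ψ) ?_
    calc A = Ψ G := hΨG.symm
      _ ≤ ‖Ψ G‖ := Real.le_norm_self _
      _ ≤ ‖Ψ‖ * ‖G‖ := Ψ.le_opNorm G
      _ ≤ ‖Ψ‖ * Real.sqrt A := mul_le_mul_of_nonneg_left hG (norm_nonneg Ψ)
  have hmem : Memℓp y 2 := by
    refine memℓp_gen' (C := ‖Ψ‖ ^ 2) fun s => ?_
    have := hS1 s
    simpa [ENNReal.toReal_ofNat, Real.rpow_two] using this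
  refine ⟨⟨y, hmem⟩, ?_⟩
  ext f
  rw [NormedSpace.dual_def]
  have h1 : HasSum (fun n => Ψ ((f.comp (lp.singleContinuousLinearMap ℝ E 2 n)).comp
      (lp.evalCLM ℝ E 2 n))) (Ψ f) := Ψ.hasSum (lp2_dual_hasSum h f)
  have h2 : HasSum (fun n => f (lp.single 2 n (y n))) (f ⟨y, hmem⟩) :=
    f.hasSum (lp.hasSum_single (by norm_num) (⟨y, hmem⟩ : lp E 2))
  have h3 : ∀ n, Ψ ((f.comp (lp.singleContinuousLinearMap ℝ E 2 n)).comp
      (lp.evalCLM ℝ E 2 n)) = f (lp.single 2 n (y n)) := by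
    intro n
    rw [hy n]
    simp
  rw [funext h3] at h1
  exact h2.unique h1

end Vale.Agent.Lib.P069
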