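import Vale.Agent.Lib.P069.Defs

namespace Vale.Agent.Lib.P069

namespace Trees

theorem exists_near_of_weakly_null {X : Type*} [NormedAddCommGroup X] [NormedSpace ℝ X]
    (F : Submodule ℝ X) (hF : IsClosed (F : Set X)) (hfd : FiniteDimensional ℝ (X ⧸ F))
    (u : ℕ → X)
    (hu : ∀ φ : StrongDual ℝ X, Filter.Tendsto (fun k => φ (u k)) Filter.atTop (nhds 0))
    (ε : ℝ) (hε : 0 < ε) : ∃ k, ∃ y ∈ F, ‖u k - y‖ < ε := by
  have : IsClosed (F : Set X) := hF
  have : FiniteDimensional ℝ (X ⧸ F) := hfd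
  let b := Module.finBasis ℝ (X ⧸ F)
  let e : (X ⧸ F) ≃L[ℝ] (Fin (Module.finrank ℝ (X ⧸ F)) → ℝ) := b.equivFunL
  -- coordinates of the image of u k tend to zero
  have hcoord : Filter.Tendsto (fun k => e (F.mkQL (u k))) Filter.atTop (nhds 0) := by
    rw [tendsto_pi_nhds]
    intro i
    have h1 := hu (((ContinuousLinearMap.proj i : (Fin (Module.finrank ℝ (X ⧸ F)) → ℝ) →L[ℝ] ℝ).comp
      (e : (X ⧸ F) →L[ℝ] (Fin (Module.finrank ℝ (X ⧸ F)) → ℝ))).comp F.mkQL)
    simpa using h1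
  have hq : Filter.Tendsto (fun k => F.mkQL (u k)) Filter.atTop (nhds 0) := by
    have h2 : Filter.Tendsto (fun k => e.symm (e (F.mkQL (u k)))) Filter.atTop
        (nhds (e.symm 0)) := (e.symm.continuous.tendsto 0).comp hcoord
    simpa using h2
  have hnorm : Filter.Tendsto (fun k => ‖F.mkQL (u k)‖) Filter.atTop (nhds 0) := by
    simpa using hq.norm
  have hev : ∀ᶠ k in Filter.atTop, ‖F.mkQL (u k)‖ < ε / 2 :=
    hnorm.eventually (gt_mem_nhds (by positivity))
  obtain ⟨k, hk⟩ := hev.exists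
  obtain ⟨m, hm1, hm2⟩ := Submodule.Quotient.norm_mk_lt (F.mkQL (u k)) (half_pos hε)
  refine ⟨k, u k - m, ?_, ?_⟩
  · have h3 : (Submodule.Quotient.mk m : X ⧸ F) = Submodule.Quotient.mk (u k) := by
      rw [hm1]; rfl
    rw [Submodule.Quotient.eq] at h3
    have : u k - m = -(m - u k) := by abel
    rw [this]
    exact F.neg_mem h3
  · have : u k - (u k - m) = m := by abel
    rw [this]
    linarith

/-- AUC along rays: the lower bound holds for all vectors of the subspace of size at least t -/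
theorem auc_ray {X : Type*} [NormedAddCommGroup X] [NormedSpace ℝ X] (N : Seminorm ℝ X)
    {t δ : ℝ} (ht : 0 < t) (x : X) (hx : N x = 1) (F : Submodule ℝ X)
    (hF : ∀ y ∈ F, N y = 1 → 1 + δ ≤ N (x + t • y)) (hδ : 0 < δ) (y : X) (hy : y ∈ F)
    (hNy : t ≤ N y) : 1 + δ ≤ N (x + y) := by
  have hNy0 : 0 < N y := lt_of_lt_of_le ht hNy
  set l : ℝ := t / N y with hl
  have hl0 : 0 < l := div_pos ht hNy0
  have hl1 : l ≤ 1 := (div_le_one hNy0).mpr hNy
  have hy0 : N ((N y)⁻¹ • y) = 1 := by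
    rw [map_smul_eq_mul, Real.norm_eq_abs, abs_of_pos (inv_pos.mpr hNy0), inv_mul_cancel₀ hNy0.ne']
  have h1 := hF ((N y)⁻¹ • y) (F.smul_mem _ hy) hy0
  have e : x + t • ((N y)⁻¹ • y) = (1 - l) • x + l • (x + y) := by
    rw [smul_smul, smul_add, sub_smul, one_smul, hl, div_eq_mul_inv]
    abel
  rw [e] at h1
  have h2 : N ((1 - l) • x + l • (x + y)) ≤ (1 - l) * N x + l * N (x + y) := by
    calc N ((1 - l) • x + l • (x + y)) ≤ N ((1 - l) • x) + N (l • (x + y)) := map_add_le_add N _ _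
      _ = (1 - l) * N x + l * N (x + y) := by
        rw [map_smul_eq_mul, map_smul_eq_mul, Real.norm_eq_abs, Real.norm_eq_abs,
          abs_of_nonneg (by linarith), abs_of_pos hl0]
  rw [hx] at h2
  -- 1 + δ ≤ (1 - l) + l * N (x + y)
  have h3 : l * (1 + δ) ≤ l * N (x + y) := by nlinarith
  exact le_of_mul_le_mul_left h3 hl0

end Trees

open Trees in
theorem not_auc_of_trees {X : Type*} [NormedAddCommGroup X] [NormedSpace ℝ X]
    (h : ∀ n : ℕ, ∃ (z u : List ℕ → X),
      (∀ c : List ℕ, c.length ≤ n → ‖z c‖ ≤ 1) ∧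
      (∀ c : List ℕ, c.length ≤ n → 1 ≤ ‖z c‖) ∧
      (∀ (k : ℕ) (c : List ℕ), 1 ≤ ‖u (k :: c)‖) ∧
      (∀ (k : ℕ) (c : List ℕ), c.length < n → z (k :: c) = z c + u (k :: c)) ∧
      (∀ (c : List ℕ) (φ : StrongDual ℝ X),
        Filter.Tendsto (fun k => φ (u (k :: c))) Filter.atTop (nhds 0)))
    (N : Seminorm ℝ X) (hN : ∃ c C : ℝ, 0 < c ∧ ∀ x, c * ‖x‖ ≤ N x ∧ N x ≤ C * ‖x‖) :
    ¬ IsAUC N := by
  intro hauc
  obtain ⟨c0, C, hc0, hNb⟩ := hN
  -- C is positive
  have hC : 0 < C := by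
    obtain ⟨z, u, hz1, hz2, -⟩ := h 0
    have h1 := hNb (z [])
    have hz : ‖z []‖ = 1 := le_antisymm (hz1 [] (by simp)) (hz2 [] (by simp))
    rw [hz, mul_one, mul_one] at h1
    linarith [h1.1, h1.2]
  set t0 : ℝ := c0 / (2 * C) with ht0
  have ht0pos : 0 < t0 := by positivity
  obtain ⟨δ, hδ, hF⟩ := hauc t0 ht0pos
  -- choose the height
  obtain ⟨n, hn⟩ := pow_unbounded_of_one_lt (C / c0) (show (1 : ℝ) < 1 + δ / 2 by linarith)
  obtain ⟨z, u, hz1, hz2, hu1, hzu, hweak⟩ := h n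
  set ε : ℝ := min (c0 / (2 * C)) (c0 * δ / (2 * C)) with hε
  have hεpos : 0 < ε := lt_min (by positivity) (by positivity)
  have hCε1 : C * ε ≤ c0 / 2 := by
    have : ε ≤ c0 / (2 * C) := min_le_left _ _
    calc C * ε ≤ C * (c0 / (2 * C)) := mul_le_mul_of_nonneg_left this hC.le
      _ = c0 / 2 := by field_simp
  have hCε2 : C * ε ≤ c0 * δ / 2 := by
    have : ε ≤ c0 * δ / (2 * C) := min_le_right _ _
    calc C * ε ≤ C * (c0 * δ / (2 * C)) := mul_le_mul_of_nonneg_left this hC.le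
      _ = c0 * δ / 2 := by field_simp
  -- the induction
  have key : ∀ i : ℕ, i ≤ n → ∃ c : List ℕ, c.length = i ∧ c0 * (1 + δ / 2) ^ i ≤ N (z c) := by
    intro i
    induction i with
    | zero =>
      intro _
      refine ⟨[], rfl, ?_⟩
      have h1 := (hNb (z [])).1
      have h2 := hz2 [] (by simp)
      rw [pow_zero, mul_one]
      nlinarith
    | succ i ih =>
      intro hi
      obtain ⟨c, hc, hNc⟩ := ih (by omega)
      set a : ℝ := N (z c) with ha
      have ha0 : c0 ≤ a := by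
        have h1 := (hNb (z c)).1
        have h2 := hz2 c (by omega)
        nlinarith
      have hapos : 0 < a := lt_of_lt_of_le hc0 ha0
      have haC : a ≤ C := by
        have h1 := (hNb (z c)).2
        have h2 := hz1 c (by omega)
        nlinarith
      have hx : N (a⁻¹ • z c) = 1 := by
        rw [map_smul_eq_mul, Real.norm_eq_abs, abs_of_pos (inv_pos.mpr hapos), ← ha,
          inv_mul_cancel₀ hapos.ne']
      obtain ⟨F, hFc, hFd, hFy⟩ := hF (a⁻¹ • z c) hx
      obtain ⟨k, y', hy'F, hy'⟩ := exists_near_of_weakly_null F hFc hFd (fun k => u (k :: c))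
        (fun φ => hweak c φ) ε hεpos
      -- N of the difference
      have hdiff : N (u (k :: c) - y') ≤ C * ε := by
        have h1 := (hNb (u (k :: c) - y')).2
        nlinarith
      have hNy' : c0 / 2 ≤ N y' := by
        have h1 : N (u (k :: c)) ≤ N y' + N (u (k :: c) - y') := by
          have : u (k :: c) = y' + (u (k :: c) - y') := by abel
          calc N (u (k :: c)) = N (y' + (u (k :: c) - y')) := by rw [← this]
            _ ≤ N y' + N (u (k :: c) - y') := map_add_le_add N _ _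
        have h2 := (hNb (u (k :: c))).1
        have h3 := hu1 k c
        nlinarith
      have hray : t0 ≤ N (a⁻¹ • y') := by
        rw [map_smul_eq_mul, Real.norm_eq_abs, abs_of_pos (inv_pos.mpr hapos), ht0]
        rw [div_le_iff₀ (by positivity)]
        have : a⁻¹ * N y' * (2 * C) = (2 * C / a) * N y' := by field_simp
        rw [this]
        have h2 : (2 : ℝ) ≤ 2 * C / a := by
          rw [le_div_iff₀ hapos]; linarith
        nlinarith
      have h1 := auc_ray N ht0pos (a⁻¹ • z c) hx F hFy hδ (a⁻¹ • y') (F.smul_mem _ hy'F) hray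
      have h2 : a * (1 + δ) ≤ N (z c + y') := by
        have : a⁻¹ • z c + a⁻¹ • y' = a⁻¹ • (z c + y') := by rw [smul_add]
        rw [this, map_smul_eq_mul, Real.norm_eq_abs, abs_of_pos (inv_pos.mpr hapos)] at h1
        have h3 : a * (1 + δ) ≤ a * (a⁻¹ * N (z c + y')) :=
          mul_le_mul_of_nonneg_left h1 hapos.le
        rwa [← mul_assoc, mul_inv_cancel₀ hapos.ne', one_mul] at h3
      refine ⟨k :: c, by simp [hc], ?_⟩
      rw [hzu k c (by omega)]
      have h3 : N (z c + y') ≤ N (z c + u (k :: c)) + N (u (k :: c) - y') := by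
        have : z c + y' = (z c + u (k :: c)) + (y' - u (k :: c)) := by abel
        calc N (z c + y') = N ((z c + u (k :: c)) + (y' - u (k :: c))) := by rw [← this]
          _ ≤ N (z c + u (k :: c)) + N (y' - u (k :: c)) := map_add_le_add N _ _
          _ = N (z c + u (k :: c)) + N (u (k :: c) - y') := by rw [map_sub_rev]
      have h4 : a * (1 + δ / 2) ≤ N (z c + u (k :: c)) := by nlinarith
      calc c0 * (1 + δ / 2) ^ (i + 1) = c0 * (1 + δ / 2) ^ i * (1 + δ / 2) := by ring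
        _ ≤ a * (1 + δ / 2) := mul_le_mul_of_nonneg_right hNc (by linarith)
        _ ≤ N (z c + u (k :: c)) := h4
  obtain ⟨c, hc, hNc⟩ := key n le_rfl
  have h1 := (hNb (z c)).2
  have h2 := hz1 c (by omega)
  have h3 : c0 * (1 + δ / 2) ^ n ≤ C := by nlinarith
  have h4 : C < c0 * (1 + δ / 2) ^ n := by
    rw [div_lt_iff₀ hc0] at hn
    linarith
  linarith

end Vale.Agent.Lib.P069
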